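import Vale.Agent.P299.H723.D.Stmt
import Vale.Agent.P299.H227.D1Asm
import Vale.Agent.P299.H760.D2
import Vale.Agent.P299.H227.Glue
import Vale.Agent.P299.H720.D4aFinal
import Vale.Agent.P299.H720.D5Final
import Vale.Agent.P299.H954.TenZero
import Vale.Agent.P299.H996.D6.Main

/-!
# P299, Part I: nonzero holomorphic tensors with values in `-mK` on a compact Kähler manifold with
`Ric ≥ 0`, from the product decomposition (D1) and the index theorem (INDEX)
-/

open Vale.Agent.P299.D

namespace Vale.Agent.P299.PartI

/-- **Part I** from D1 and the index theorem. -/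
theorem tensor_of (h1 : D1Statement) (hI : IndexStatement) : TensorStatement :=
  H996.d6 h1 H760.d2 H227.d3Statement H720.d4a H954.d4c H720.d5 hI

/-- **Part I** from the index theorem. -/
theorem tensor_of_index (hI : IndexStatement) : TensorStatement :=
  tensor_of H227.Asm.d1Statement hI

end Vale.Agent.P299.PartI
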